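import Mathlib

/-!
An abstract parity lemma (median level of an arrangement of great circles)

`S` = states (edges of a graph), `X` = vertices, every state `s` has two ends `e1 s`, `e2 s`, every vertex is
an end of an even number of states.  `sg` is an involution of the states that preserves adjacency (two states
are adjacent if they share an end).  `eps` two-colours the vertices; a state is *cut* if its ends have different
colours.  If `sg` preserves being cut and the number of cut states is twice an odd number then some state is
joined to its image under `sg` by a chain of adjacent states.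
-/

namespace Vale.Agent.P040.Sph93

open Finset

variable {S X : Type*}

/-- two states are adjacent if they share an end -/
def Adj (e1 e2 : S → X) (s t : S) : Prop :=
  e1 s = e1 t ∨ e1 s = e2 t ∨ e2 s = e1 t ∨ e2 s = e2 t

lemma Adj.symm {e1 e2 : S → X} {s t : S} (h : Adj e1 e2 s t) : Adj e1 e2 t s := by
  rcases h with h | h | h | h
  · exact Or.inl h.symm
  · exact Or.inr (Or.inr (Or.inl h.symm))
  · exact Or.inr (Or.inl h.symm)
  · exact Or.inr (Or.inr (Or.inr h.symm))

/-- being joined by a chain of adjacent states -/
def Reach (e1 e2 : S → X) (s t : S) : Prop := Relation.ReflTransGen (Adj e1 e2) s t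

lemma Reach.symm {e1 e2 : S → X} {s t : S} (h : Reach e1 e2 s t) : Reach e1 e2 t s := by
  induction h with
  | refl => exact Relation.ReflTransGen.refl
  | tail _ hbc ih => exact Relation.ReflTransGen.head hbc.symm ih

/-- the equivalence relation `Reach` -/
def reachSetoid (e1 e2 : S → X) : Setoid S where
  r := Reach e1 e2
  iseqv := ⟨fun _ => Relation.ReflTransGen.refl, fun h => h.symm,
    fun h1 h2 => Relation.ReflTransGen.trans h1 h2⟩

lemma Reach.map {e1 e2 : S → X} {sg : S → S}
    (hadj : ∀ s t, Adj e1 e2 s t → Adj e1 e2 (sg s) (sg t)) {s t : S} (h : Reach e1 e2 s t) :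
    Reach e1 e2 (sg s) (sg t) := by
  induction h with
  | refl => exact Relation.ReflTransGen.refl
  | tail _ hbc ih => exact Relation.ReflTransGen.tail ih (hadj _ _ hbc)

/-- handshake: in a set of states closed under adjacency the number of cut states is even -/
lemma even_cut_of_closed [Fintype S] [DecidableEq S] [Fintype X] [DecidableEq X]
    (e1 e2 : S → X) (eps : X → Bool)
    (hdeg : ∀ x, Even ((univ.filter fun s => e1 s = x).card + (univ.filter fun s => e2 s = x).card))
    (U : Finset S) (hU : ∀ s t, Adj e1 e2 s t → s ∈ U → t ∈ U) :
    Even (U.filter fun s => (eps (e1 s) != eps (e2 s)) = true).card := by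
  classical
  set d : X → ℕ := fun x => if eps x = true then 1 else 0 with hd
  have h1 : ∀ s, Even ((if (eps (e1 s) != eps (e2 s)) = true then 1 else 0) + (d (e1 s) + d (e2 s))) := by
    intro s
    simp only [hd]
    cases eps (e1 s) <;> cases eps (e2 s) <;> simp
  have h2 : Even (∑ s ∈ U, ((if (eps (e1 s) != eps (e2 s)) = true then 1 else 0) +
      (d (e1 s) + d (e2 s)))) := Finset.even_sum _ fun s _ => h1 s
  have h3 : ∀ e : S → X, ∑ s ∈ U, d (e s) = ∑ x, (U.filter fun s => e s = x).card * d x := by
    intro e
    have : ∀ s ∈ U, d (e s) = ∑ x, if e s = x then d x else 0 := by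
      intro s _
      simp
    rw [Finset.sum_congr rfl this, Finset.sum_comm]
    refine Finset.sum_congr rfl fun x _ => ?_
    rw [← Finset.sum_filter, Finset.sum_const, smul_eq_mul]
  have h4 : Even (∑ s ∈ U, (d (e1 s) + d (e2 s))) := by
    rw [Finset.sum_add_distrib, h3 e1, h3 e2, ← Finset.sum_add_distrib]
    refine Finset.even_sum _ fun x _ => ?_
    rw [← add_mul]
    apply Even.mul_right
    by_cases hx : ∃ s0 ∈ U, e1 s0 = x ∨ e2 s0 = x
    · obtain ⟨s0, hs0, hx0⟩ := hx
      have e1' : (U.filter fun s => e1 s = x) = univ.filter fun s => e1 s = x := by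
        ext s
        simp only [mem_filter, mem_univ, true_and, and_iff_right_iff_imp]
        intro hs
        refine hU s0 s ?_ hs0
        rcases hx0 with h | h
        · exact Or.inl (h.trans hs.symm)
        · exact Or.inr (Or.inr (Or.inl (h.trans hs.symm)))
      have e2' : (U.filter fun s => e2 s = x) = univ.filter fun s => e2 s = x := by
        ext s
        simp only [mem_filter, mem_univ, true_and, and_iff_right_iff_imp]
        intro hs
        refine hU s0 s ?_ hs0
        rcases hx0 with h | h
        · exact Or.inr (Or.inl (h.trans hs.symm))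
        · exact Or.inr (Or.inr (Or.inr (h.trans hs.symm)))
      rw [e1', e2']
      exact hdeg x
    · push Not at hx
      have e1' : (U.filter fun s => e1 s = x) = ∅ := by
        apply Finset.filter_eq_empty_iff.mpr
        intro s hs
        exact (hx s hs).1
      have e2' : (U.filter fun s => e2 s = x) = ∅ := by
        apply Finset.filter_eq_empty_iff.mpr
        intro s hs
        exact (hx s hs).2
      rw [e1', e2']
      simp
  rw [Finset.sum_add_distrib] at h2
  have h5 : Even (∑ s ∈ U, (if (eps (e1 s) != eps (e2 s)) = true then 1 else 0)) :=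
    (Nat.even_add.mp h2).mpr h4
  rwa [Finset.card_filter]

/-- **Parity lemma.** -/
theorem exists_reach_antipode [Fintype S] [DecidableEq S] [Fintype X] [DecidableEq X]
    (e1 e2 : S → X) (sg : S → S) (eps : X → Bool)
    (hsg : ∀ s, sg (sg s) = s)
    (hdeg : ∀ x, Even ((univ.filter fun s => e1 s = x).card + (univ.filter fun s => e2 s = x).card))
    (hadj : ∀ s t, Adj e1 e2 s t → Adj e1 e2 (sg s) (sg t))
    (hcut : ∀ s, (eps (e1 (sg s)) != eps (e2 (sg s))) = (eps (e1 s) != eps (e2 s)))
    (h : ℕ) (hodd : Odd h)
    (hcard : (univ.filter fun s => (eps (e1 s) != eps (e2 s)) = true).card = 2 * h) :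
    ∃ s, Relation.ReflTransGen (Adj e1 e2) s (sg s) := by
  classical
  by_contra hcon
  push Not at hcon
  let q : S → Quotient (reachSetoid e1 e2) := fun s => Quotient.mk _ s
  let key : S → Fin (Fintype.card S) := fun s => Fintype.equivFin S (q s).out
  have hq : ∀ s t, q s = q t ↔ Reach e1 e2 s t := fun s t => Quotient.eq (r := reachSetoid e1 e2)
  have hkey : ∀ s t, key s = key t ↔ Reach e1 e2 s t := by
    intro s t
    constructor
    · intro hst
      have h1 : (q s).out = (q t).out := (Fintype.equivFin S).injective hst
      have h2 : q s = q t := by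
        rw [← Quotient.out_eq (q s), ← Quotient.out_eq (q t), h1]
      exact (hq s t).mp h2
    · intro hst
      show Fintype.equivFin S (q s).out = Fintype.equivFin S (q t).out
      rw [(hq s t).mpr hst]
  let U : Finset S := univ.filter fun s => key s < key (sg s)
  have hUmem : ∀ s, s ∈ U ↔ key s < key (sg s) := by
    intro s
    simp [U]
  have hUclosed : ∀ s t, Adj e1 e2 s t → s ∈ U → t ∈ U := by
    intro s t hst hs
    rw [hUmem] at hs ⊢
    have h1 : key s = key t := (hkey s t).mpr (Relation.ReflTransGen.single hst)
    have h2 : key (sg s) = key (sg t) :=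
      (hkey _ _).mpr (Relation.ReflTransGen.single (hadj s t hst))
    rwa [← h1, ← h2]
  have hUsg : ∀ s, sg s ∈ U ↔ s ∉ U := by
    intro s
    rw [hUmem, hUmem, hsg]
    have hne : key s ≠ key (sg s) := fun e => hcon s ((hkey _ _).mp e)
    constructor
    · intro h1 h2
      exact absurd (lt_trans h1 h2) (lt_irrefl _)
    · intro h1
      exact lt_of_le_of_ne (not_lt.mp h1) hne.symm
  have heven := even_cut_of_closed e1 e2 eps hdeg U hUclosed
  have hsplit : (univ.filter fun s => (eps (e1 s) != eps (e2 s)) = true).card =
      (U.filter fun s => (eps (e1 s) != eps (e2 s)) = true).card +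
      (U.filter fun s => (eps (e1 s) != eps (e2 s)) = true).card := by
    have h1 : (univ.filter fun s => (eps (e1 s) != eps (e2 s)) = true) =
        (U.filter fun s => (eps (e1 s) != eps (e2 s)) = true) ∪
        ((U.filter fun s => (eps (e1 s) != eps (e2 s)) = true).image sg) := by
      ext s
      simp only [mem_filter, mem_univ, true_and, mem_union, mem_image]
      constructor
      · intro hs
        by_cases hsU : s ∈ U
        · exact Or.inl ⟨hsU, hs⟩
        · refine Or.inr ⟨sg s, ⟨(hUsg s).mpr hsU, ?_⟩, hsg s⟩
          rw [hcut]
          exact hs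
      · rintro (⟨_, hs⟩ | ⟨t, ⟨_, ht⟩, rfl⟩)
        · exact hs
        · rw [hcut]
          exact ht
    have h2 : Disjoint (U.filter fun s => (eps (e1 s) != eps (e2 s)) = true)
        ((U.filter fun s => (eps (e1 s) != eps (e2 s)) = true).image sg) := by
      rw [Finset.disjoint_left]
      intro s hs hs'
      simp only [mem_filter, mem_image] at hs hs'
      obtain ⟨t, ⟨htU, _⟩, rfl⟩ := hs'
      exact ((hUsg t).mp hs.1) htU
    have hinj : Function.Injective sg := fun a b hab => by
      have := congrArg sg hab
      rwa [hsg, hsg] at this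
    rw [h1, Finset.card_union_of_disjoint h2, Finset.card_image_of_injective _ hinj]
  rw [hcard] at hsplit
  have : (U.filter fun s => (eps (e1 s) != eps (e2 s)) = true).card = h := by omega
  rw [this] at heven
  exact (Nat.not_even_iff_odd.mpr hodd) heven

end Vale.Agent.P040.Sph93
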