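import Mathlib
import Vale.Agent.P040.Sph35.Parity

/-!
The windmill on a chirotope (design of helper75): uniqueness of the successor, levels, parity of the number
of turns.  Everything is stated for an abstract alternating function `d` that does not vanish on distinct
triples, and a successor function `nx` with `Cons d p q (nx p q)`.
-/

namespace Vale.Agent.P040.Sph93

open Finset

variable {k : ℕ} {d : Fin (2 * k + 1) → Fin (2 * k + 1) → Fin (2 * k + 1) → ℝ}

/-- an alternating function, nonzero on distinct triples -/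
structure Chi (k : ℕ) (d : Fin (2 * k + 1) → Fin (2 * k + 1) → Fin (2 * k + 1) → ℝ) : Prop where
  s12 : ∀ a b c, d b a c = - d a b c
  s23 : ∀ a b c, d a c b = - d a b c
  ne : ∀ a b c, a ≠ b → a ≠ c → b ≠ c → d a b c ≠ 0

/-- rotating the plane `p q` about `q` (so that `p` becomes negative) the first vector hit is `r` -/
def Cons (d : Fin (2 * k + 1) → Fin (2 * k + 1) → Fin (2 * k + 1) → ℝ) (p q r : Fin (2 * k + 1)) : Prop :=
  r ≠ p ∧ r ≠ q ∧ ∀ z, z ≠ p → z ≠ q → z ≠ r → d p q z * d q r z * d p q r < 0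

/-- number of vectors on the positive side of the plane `a b` -/
noncomputable def Q (d : Fin (2 * k + 1) → Fin (2 * k + 1) → Fin (2 * k + 1) → ℝ) (a b : Fin (2 * k + 1)) : ℕ :=
  (univ.filter fun z => 0 < d a b z).card

lemma Chi.z12 (h : Chi k d) (a c : Fin (2 * k + 1)) : d a a c = 0 := by
  have := h.s12 a a c
  linarith

lemma Chi.z23 (h : Chi k d) (a c : Fin (2 * k + 1)) : d a c c = 0 := by
  have := h.s23 a c c
  linarith

lemma Chi.cyc (h : Chi k d) (a b c : Fin (2 * k + 1)) : d b c a = d a b c := by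
  rw [h.s23 b a c, h.s12 a b c, neg_neg]

lemma Chi.s13 (h : Chi k d) (a b c : Fin (2 * k + 1)) : d c b a = - d a b c := by
  rw [h.s12 b c a, h.cyc]

lemma Chi.z13 (h : Chi k d) (a b : Fin (2 * k + 1)) : d a b a = 0 := by
  have := h.s13 a b a
  linarith

lemma Cons.unique_right (h : Chi k d) {p q r r' : Fin (2 * k + 1)} (h1 : Cons d p q r)
    (h2 : Cons d p q r') : r = r' := by
  by_contra hne
  have a := h1.2.2 r' h2.1 h2.2.1 (Ne.symm hne)
  have b := h2.2.2 r h1.1 h1.2.1 hne
  rw [h.s23 q r r'] at b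
  nlinarith

lemma Cons.unique_left (h : Chi k d) {p p' q r : Fin (2 * k + 1)} (h1 : Cons d p q r)
    (h2 : Cons d p' q r) (hpq : p ≠ q) (hp'q : p' ≠ q) : p = p' := by
  by_contra hne
  have a := h1.2.2 p' (Ne.symm hne) hp'q h2.1.symm
  have b := h2.2.2 p hne hpq h1.1.symm
  rw [h.s13 p q p', h.cyc p q r, ← h.cyc p' q r] at b
  nlinarith

lemma Q_swap (h : Chi k d) {a b : Fin (2 * k + 1)} (hab : a ≠ b) :
    Q d a b + Q d b a + 2 = 2 * k + 1 := by
  classical
  have h1 : ∀ z, (if 0 < d a b z then 1 else 0) + (if 0 < d b a z then 1 else 0)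
      + ((if z = a then 1 else 0) + (if z = b then 1 else 0)) = 1 := by
    intro z
    rw [h.s12 a b z]
    by_cases hza : z = a
    · subst hza
      simp [h.z13, hab]
    by_cases hzb : z = b
    · subst hzb
      simp [h.z23, hza]
    rcases lt_or_gt_of_ne (h.ne a b z hab (Ne.symm hza) (Ne.symm hzb)) with h2 | h2
    · simp [hza, hzb, h2, not_lt.2 h2.le]
    · simp [hza, hzb, h2, not_lt.2 h2.le]
  have h2 : ∑ z : Fin (2 * k + 1), ((if z = a then 1 else 0) + (if z = b then 1 else 0)) = 2 := by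
    simp [sum_add_distrib]
  have h3 := sum_congr (s₁ := (univ : Finset (Fin (2 * k + 1)))) rfl (fun z _ => h1 z)
  rw [sum_add_distrib, sum_add_distrib, ← card_filter, ← card_filter, h2] at h3
  unfold Q
  simpa using h3

lemma Q_next_neg (h : Chi k d) {p q r : Fin (2 * k + 1)} (hc : Cons d p q r)
    (hs : d p q r < 0) : Q d q r = Q d p q := by
  unfold Q
  congr 1
  ext z
  simp only [mem_filter, mem_univ, true_and]
  by_cases hzp : z = p
  · subst hzp
    rw [h.cyc, h.z13]
    constructor <;> intro h' <;> linarith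
  by_cases hzq : z = q
  · subst hzq
    rw [h.z13, h.z23]
  by_cases hzr : z = r
  · subst hzr
    rw [h.z23]
    constructor <;> intro h' <;> linarith
  have h1 := hc.2.2 z hzp hzq hzr
  have h2 : 0 < d p q z * d q r z := by
    rcases mul_neg_iff.1 h1 with ⟨h3, _⟩ | ⟨_, h4⟩
    · exact h3
    · linarith
  exact (pos_iff_pos_of_mul_pos h2).symm

lemma Q_next_pos (h : Chi k d) {p q r : Fin (2 * k + 1)} (hpq : p ≠ q) (hc : Cons d p q r)
    (hs : 0 < d p q r) : Q d q r + Q d p q = 2 * k := by
  classical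
  have h1 : ∀ z, (if 0 < d q r z then 1 else 0) + (if 0 < d p q z then 1 else 0)
      + (if z = q then 1 else 0) = 1 := by
    intro z
    by_cases hzp : z = p
    · subst hzp
      rw [h.cyc, h.z13]
      simp [hs, hpq]
    by_cases hzq : z = q
    · subst hzq
      rw [h.z13, h.z23]
      simp
    by_cases hzr : z = r
    · subst hzr
      rw [h.z23]
      simp [hs, hzq]
    have h1 := hc.2.2 z hzp hzq hzr
    have h2 : d p q z * d q r z < 0 := by
      rcases mul_neg_iff.1 h1 with ⟨_, h4⟩ | ⟨h3, _⟩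
      · linarith
      · exact h3
    rcases mul_neg_iff.1 h2 with ⟨h3, h4⟩ | ⟨h3, h4⟩
    · simp [h3, not_lt.2 h4.le, hzq]
    · simp [h4, not_lt.2 h3.le, hzq]
  have h2 : ∑ z : Fin (2 * k + 1), (if z = q then 1 else 0) = 1 := by
    simp
  have h3 := sum_congr (s₁ := (univ : Finset (Fin (2 * k + 1)))) rfl (fun z _ => h1 z)
  rw [sum_add_distrib, sum_add_distrib, ← card_filter, ← card_filter, h2] at h3
  have h4 : Q d q r + Q d p q + 1 = 2 * k + 1 := by
    unfold Q
    simpa using h3
  omega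

lemma sgn3 {x y s : ℝ} (h : 0 < x * y * s) : (x < 0 ↔ (y < 0 ↔ 0 < s)) := by
  rcases mul_pos_iff.1 h with ⟨h1, h2⟩ | ⟨h1, h2⟩
  · rcases mul_pos_iff.1 h1 with ⟨h3, h4⟩ | ⟨h3, h4⟩
    · simp [h2, not_lt.2 h3.le, not_lt.2 h4.le]
    · simp [h2, h3, h4]
  · rcases mul_neg_iff.1 h1 with ⟨h3, h4⟩ | ⟨h3, h4⟩
    · simp [not_lt.2 h2.le, not_lt.2 h3.le, h4]
    · simp [not_lt.2 h2.le, h3, not_lt.2 h4.le]

lemma sgn3' {x y s : ℝ} (h : x * y * s < 0) : (x < 0 ↔ ¬ (y < 0 ↔ 0 < s)) := by
  have h' : 0 < (-x) * y * s := by nlinarith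
  rcases mul_pos_iff.1 h' with ⟨h1, h2⟩ | ⟨h1, h2⟩
  · rcases mul_pos_iff.1 h1 with ⟨h3, h4⟩ | ⟨h3, h4⟩
    · have h5 : x < 0 := by linarith
      simp [h2, h5, not_lt.2 h4.le]
    · have h5 : ¬ x < 0 := by linarith
      simp [h2, h5, h4]
  · rcases mul_neg_iff.1 h1 with ⟨h3, h4⟩ | ⟨h3, h4⟩
    · have h5 : x < 0 := by linarith
      simp [not_lt.2 h2.le, h5, h4]
    · have h5 : ¬ x < 0 := by linarith
      simp [not_lt.2 h2.le, h5, not_lt.2 h4.le]

lemma turn_prop {a' w' A S w E Pq Pu : Prop} (hEw : E → w) (hPq : Pq)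
    (ha : a' ↔ ((A ↔ S) ↔ Pu)) (e1 : ¬ Pu → ¬ A)
    (hw : w' ↔ ((S ∧ w ∧ ¬ E) ∨ (¬ S ∧ ¬ w))) :
    ¬ ((a' ↔ w') ↔ (A ↔ w)) ↔ ((Pq ∧ E ∧ S) ↔ Pu) := by
  rw [ha, hw]
  by_cases hS : S <;> by_cases hw0 : w <;> by_cases hE : E <;> by_cases hU : Pu <;>
    by_cases hA : A <;> simp_all

theorem odd_turn_at (hk : 1 ≤ k) (h : Chi k d) (nx : Fin (2 * k + 1) → Fin (2 * k + 1) → Fin (2 * k + 1))
    (hnx : ∀ p q, p ≠ q → Cons d p q (nx p q)) (q : Fin (2 * k + 1)) :
    Odd (univ.filter fun p => p ≠ q ∧ Q d p q = k ∧ 0 < d p q (nx p q)).card := by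
  classical
  obtain ⟨u, hu⟩ : ∃ u, u ≠ q :=
    Fintype.exists_ne_of_one_lt_card (by rw [Fintype.card_fin]; omega) q
  let nu : Fin (2 * k + 1) → Fin (2 * k + 1) := fun p => if p = q then q else nx p q
  have hinj : Function.Injective nu := by
    intro a b hab
    simp only [nu] at hab
    by_cases ha : a = q <;> by_cases hb : b = q
    · rw [ha, hb]
    · rw [if_pos ha, if_neg hb] at hab
      exact absurd hab.symm (hnx b q hb).2.1
    · rw [if_neg ha, if_pos hb] at hab
      exact absurd hab (hnx a q ha).2.1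
    · rw [if_neg ha, if_neg hb] at hab
      have h1 := hnx a q ha
      have h2 := hnx b q hb
      rw [← hab] at h2
      exact Cons.unique_left h h1 h2 ha hb
  let τ : Equiv.Perm (Fin (2 * k + 1)) := Equiv.ofBijective nu (Finite.injective_iff_bijective.1 hinj)
  let et : Fin (2 * k + 1) → ℝ := fun p => if p = u then 1 else d p q u
  let W : Fin (2 * k + 1) → Bool := fun p => decide (et p < 0 ↔ k ≤ Q d p q)
  have hev := Sph35.even_changes τ W univ (by simp)
  have hpt : ∀ p, (W (τ p) ≠ W p) ↔ ((p ≠ q ∧ Q d p q = k ∧ 0 < d p q (nx p q)) ↔ p ≠ u) := by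
    intro p
    by_cases hp : p = q
    · have h1 : τ p = p := by
        simp [τ, nu, hp]
      rw [h1]
      simp [hp, hu.symm]
    have h1 : τ p = nx p q := by
      simp [τ, nu, hp]
    rw [h1]
    have hc := hnx p q hp
    set r := nx p q with hr
    have hs0 : d p q r ≠ 0 := h.ne p q r hp hc.1.symm hc.2.1.symm
    have hsw := Q_swap h hc.2.1
    simp only [W, ne_eq, decide_eq_decide]
    have hEw : Q d p q = k → k ≤ Q d p q := by omega
    have hw : k ≤ Q d r q ↔ ((0 < d p q r ∧ k ≤ Q d p q ∧ ¬ Q d p q = k)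
        ∨ (¬ 0 < d p q r ∧ ¬ k ≤ Q d p q)) := by
      rcases lt_or_gt_of_ne hs0 with hs | hs
      · have hq := Q_next_neg h hc hs
        have hs' : ¬ 0 < d p q r := not_lt.2 hs.le
        simp only [hs', false_and, not_false_eq_true, true_and, false_or]
        omega
      · have hq := Q_next_pos h hp hc hs
        simp only [hs, true_and, not_true_eq_false, false_and, or_false]
        omega
    have e1 : ¬ (¬ p = u) → ¬ et p < 0 := by
      intro hpu
      have hpu' : p = u := not_not.1 hpu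
      simp [et, hpu']
    have ha : et r < 0 ↔ ((et p < 0 ↔ 0 < d p q r) ↔ ¬ p = u) := by
      by_cases hpu : p = u
      · have he : et r * et p * d p q r < 0 := by
          have e1 : et p = 1 := by simp [et, hpu]
          have e2 : et r = - d p q r := by
            have : r ≠ u := by rw [← hpu]; exact hc.1
            simp only [et, if_neg this]
            rw [← hpu, h.s13 p q r]
          rw [e1, e2]
          have := mul_self_pos.2 hs0
          nlinarith
        rw [sgn3' he]
        simp only [hpu, not_true_eq_false, iff_false]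
      · have he : 0 < et r * et p * d p q r := by
          have e1 : et p = d p q u := by simp [et, hpu]
          by_cases hru : r = u
          · have e2 : et r = 1 := by simp [et, hru]
            rw [e1, e2, ← hru]
            have := mul_self_pos.2 hs0
            nlinarith
          · have e2 : et r = - d q r u := by
              simp only [et, if_neg hru]
              rw [h.s12 q r u]
            have := hc.2.2 u (Ne.symm hpu) hu (Ne.symm hru)
            rw [e1, e2]
            nlinarith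
        rw [sgn3 he]
        simp only [hpu, not_false_eq_true, iff_true]
    exact turn_prop hEw hp ha e1 hw
  by_cases hAu : (u ≠ q ∧ Q d u q = k ∧ 0 < d u q (nx u q))
  · have h1 : (univ.filter fun p => W (τ p) ≠ W p)
        = (univ.filter fun p => p ≠ q ∧ Q d p q = k ∧ 0 < d p q (nx p q)).erase u := by
      ext p
      simp only [mem_filter, mem_univ, true_and, mem_erase]
      rw [hpt]
      by_cases hpu : p = u
      · subst hpu
        simp [hAu]
      · simp [hpu]
    rw [h1, card_erase_of_mem (by simp only [mem_filter, mem_univ, true_and]; exact hAu)] at hev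
    have hpos : 0 < (univ.filter fun p => p ≠ q ∧ Q d p q = k ∧ 0 < d p q (nx p q)).card :=
      card_pos.2 ⟨u, by simp only [mem_filter, mem_univ, true_and]; exact hAu⟩
    obtain ⟨m, hm⟩ := hev
    exact ⟨m, by omega⟩
  · have h1 : (univ.filter fun p => W (τ p) ≠ W p)
        = insert u (univ.filter fun p => p ≠ q ∧ Q d p q = k ∧ 0 < d p q (nx p q)) := by
      ext p
      simp only [mem_filter, mem_univ, true_and, mem_insert]
      rw [hpt]
      by_cases hpu : p = u
      · subst hpu
        simp [hAu]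
      · simp [hpu]
    rw [h1, card_insert_of_notMem (by simp only [mem_filter, mem_univ, true_and]; exact hAu)] at hev
    obtain ⟨m, hm⟩ := hev
    exact ⟨m - 1, by omega⟩

theorem odd_turns (hk : 1 ≤ k) (h : Chi k d) (nx : Fin (2 * k + 1) → Fin (2 * k + 1) → Fin (2 * k + 1))
    (hnx : ∀ p q, p ≠ q → Cons d p q (nx p q)) :
    Odd (univ.filter fun x : Fin (2 * k + 1) × Fin (2 * k + 1) =>
      x.1 ≠ x.2 ∧ Q d x.1 x.2 = k ∧ 0 < d x.1 x.2 (nx x.1 x.2)).card := by
  classical
  have h1 : (univ.filter fun x : Fin (2 * k + 1) × Fin (2 * k + 1) =>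
      x.1 ≠ x.2 ∧ Q d x.1 x.2 = k ∧ 0 < d x.1 x.2 (nx x.1 x.2)).card
      = ∑ q, (univ.filter fun p => p ≠ q ∧ Q d p q = k ∧ 0 < d p q (nx p q)).card := by
    simp only [card_filter]
    rw [Fintype.sum_prod_type_right]
  rw [h1, Finset.odd_sum_iff_odd_card_odd]
  have h2 : (univ.filter fun q => Odd (univ.filter fun p => p ≠ q ∧ Q d p q = k ∧ 0 < d p q (nx p q)).card)
      = univ := by
    ext q
    simp only [mem_filter, mem_univ, true_and, iff_true]
    exact odd_turn_at hk h nx hnx q
  rw [h2, card_univ, Fintype.card_fin]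
  exact ⟨k, rfl⟩

end Vale.Agent.P040.Sph93
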