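import Vale.Agent.P040.Sph93.Parity
import Vale.Agent.P040.Sph93.Turn
import Vale.Agent.P040.Wind75.Basic
import Vale.Agent.P040.Wind30.Labels

/-!
The labelling lemma for `2k+1` vectors of three-space in general position: assembly of the windmill on
ordered pairs (design of helper75, successor from `Wind75.Basic`), the parity lemma `exists_reach_antipode`,
the count `odd_turns` and `Wind30.lab_of_reach`.
-/

namespace Vale.Agent.P040.Sph93

open Finset Vale.Agent.P040.Sph56

variable {k : ℕ}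

section abstract

variable {d : Fin (2 * k + 1) → Fin (2 * k + 1) → Fin (2 * k + 1) → ℝ}

lemma next_neg_iff (h : Chi k d) {p q r : Fin (2 * k + 1)} (hc : Cons d p q r)
    (hs : d p q r < 0) (z : Fin (2 * k + 1)) : 0 < d q r z ↔ 0 < d p q z := by
  by_cases hzp : z = p
  · subst hzp
    rw [h.cyc, h.z13]
    constructor <;> intro h' <;> linarith
  by_cases hzq : z = q
  · subst hzq
    rw [h.z13, h.z23]
  by_cases hzr : z = r
  · subst hzr
    rw [h.z23]
    constructor <;> intro h' <;> linarith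
  have h1 := hc.2.2 z hzp hzq hzr
  have h2 : 0 < d p q z * d q r z := by
    rcases mul_neg_iff.1 h1 with ⟨h3, _⟩ | ⟨_, h4⟩
    · exact h3
    · linarith
  exact (pos_iff_pos_of_mul_pos h2).symm

lemma next_pos_iff (h : Chi k d) {p q r : Fin (2 * k + 1)} (hc : Cons d p q r)
    (hs : 0 < d p q r) (z : Fin (2 * k + 1)) (hzq : z ≠ q) : 0 < d q r z ↔ ¬ 0 < d p q z := by
  by_cases hzp : z = p
  · subst hzp
    rw [h.cyc, h.z13]
    simp [hs]
  by_cases hzr : z = r
  · subst hzr
    rw [h.z23]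
    simp [hs]
  have h1 := hc.2.2 z hzp hzq hzr
  have h2 : d p q z * d q r z < 0 := by
    rcases mul_neg_iff.1 h1 with ⟨_, h4⟩ | ⟨h3, _⟩
    · linarith
    · exact h3
  rcases mul_neg_iff.1 h2 with ⟨h3, h4⟩ | ⟨h3, h4⟩
  · simp [h3, not_lt.2 h4.le]
  · simp [h4, not_lt.2 h3.le]

end abstract

variable (v : Fin (2 * k + 1) → V3)

lemma chi_dd (hg : Wind75.Gen v) : Chi k (Wind75.dd v) :=
  ⟨Wind75.dd_swap12 v, Wind75.dd_swap23 v, hg⟩

/-- explicit normal of the halving circle with pivot `q` that starts at the plane `p q` -/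
noncomputable def mm (p q : Fin (2 * k + 1)) : V3 :=
  (|Wind75.dd v p q (Wind75.nx v p q)| * (crs (v p) (v q)).1
      - Wind75.dd v p q (Wind75.nx v p q) * (crs (v q) (v (Wind75.nx v p q))).1,
    |Wind75.dd v p q (Wind75.nx v p q)| * (crs (v p) (v q)).2.1
      - Wind75.dd v p q (Wind75.nx v p q) * (crs (v q) (v (Wind75.nx v p q))).2.1,
    |Wind75.dd v p q (Wind75.nx v p q)| * (crs (v p) (v q)).2.2
      - Wind75.dd v p q (Wind75.nx v p q) * (crs (v q) (v (Wind75.nx v p q))).2.2)

lemma dot_mm (p q z : Fin (2 * k + 1)) : dot (mm v p q) (v z)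
    = |Wind75.dd v p q (Wind75.nx v p q)| * Wind75.dd v p q z
      - Wind75.dd v p q (Wind75.nx v p q) * Wind75.dd v q (Wind75.nx v p q) z := by
  generalize hD : |Wind75.dd v p q (Wind75.nx v p q)| = D
  unfold mm
  rw [hD]
  unfold dot Wind75.dd det3 crs
  ring

lemma mm_perp (p q : Fin (2 * k + 1)) : dot (mm v p q) (v q) = 0 := by
  rw [dot_mm, Wind75.dd_self23, Wind75.dd_self13]
  ring

lemma mm_sign (hg : Wind75.Gen v) (hk : 1 ≤ k) {p q : Fin (2 * k + 1)} (hpq : p ≠ q)
    (z : Fin (2 * k + 1)) (hz : z ≠ q) :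
    (0 < dot (mm v p q) (v z) ∧ 0 < Wind75.dd v p q z)
      ∨ (dot (mm v p q) (v z) < 0 ∧ ¬ 0 < Wind75.dd v p q z) := by
  have hc := Wind75.nx_spec v hg (by omega) hpq
  rw [dot_mm]
  set r := Wind75.nx v p q with hr
  have hD : Wind75.dd v p q r ≠ 0 := hg p q r hpq hc.1.symm hc.2.1.symm
  have hA : 0 < |Wind75.dd v p q r| := abs_pos.2 hD
  by_cases hzp : z = p
  · subst hzp
    right
    rw [Wind75.dd_self13, Wind75.dd_cyc v z q r]
    have := mul_self_pos.2 hD
    constructor
    · nlinarith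
    · exact lt_irrefl _
  by_cases hzr : z = r
  · rw [hzr, Wind75.dd_self23]
    rcases lt_or_gt_of_ne hD with h1 | h1
    · right
      constructor
      · nlinarith
      · exact not_lt.2 h1.le
    · left
      constructor
      · nlinarith
      · exact h1
  have h1 := hc.2.2 z hzp hz hzr
  have hz0 : Wind75.dd v p q z ≠ 0 := hg p q z hpq (Ne.symm hzp) (Ne.symm hz)
  rcases lt_or_gt_of_ne hz0 with h2 | h2
  · right
    refine ⟨?_, not_lt.2 h2.le⟩
    have h3 : 0 < Wind75.dd v q r z * Wind75.dd v p q r := by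
      by_contra h4
      have h5 := not_lt.1 h4
      nlinarith [mul_nonneg_of_nonpos_of_nonpos h2.le h5]
    nlinarith [mul_neg_of_pos_of_neg hA h2]
  · left
    refine ⟨?_, h2⟩
    have h3 : Wind75.dd v q r z * Wind75.dd v p q r < 0 := by
      by_contra h4
      have h5 := not_lt.1 h4
      nlinarith [mul_nonneg h2.le h5]
    nlinarith [mul_pos hA h2]

/-- signed states: ordered pair and a sign -/
abbrev St (k : ℕ) : Type := (Fin (2 * k + 1) × Fin (2 * k + 1)) × Bool

/-- the median pairs -/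
def Om (x : Fin (2 * k + 1) × Fin (2 * k + 1)) : Prop := x.1 ≠ x.2 ∧ Q (Wind75.dd v) x.1 x.2 = k

open Classical in
/-- the windmill step -/
noncomputable def tau (s : St k) : St k :=
  if Om v s.1 then ((s.1.2, Wind75.nx v s.1.1 s.1.2),
    xor s.2 (decide (0 < Wind75.dd v s.1.1 s.1.2 (Wind75.nx v s.1.1 s.1.2)))) else s

/-- the antipode -/
def sg (s : St k) : St k := (s.1, !s.2)

/-- the normal of a signed state -/
noncomputable def nrmS (s : St k) : V3 := if s.2 = true then mm v s.1.1 s.1.2 else ng (mm v s.1.1 s.1.2)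

lemma nrmS_pos (hg : Wind75.Gen v) (hk : 1 ≤ k) (s : St k) (hs : s.1.1 ≠ s.1.2)
    (z : Fin (2 * k + 1)) (hz : z ≠ s.1.2) :
    0 < dot (nrmS v s) (v z) ↔ (s.2 = true ↔ 0 < Wind75.dd v s.1.1 s.1.2 z) := by
  unfold nrmS
  rcases mm_sign v hg hk hs z hz with ⟨h1, h2⟩ | ⟨h1, h2⟩
  · by_cases he : s.2 = true
    · rw [if_pos he]
      exact ⟨fun _ => ⟨fun _ => h2, fun _ => he⟩, fun _ => h1⟩
    · rw [if_neg he, Wind30.dot_ng]
      constructor
      · intro h
        linarith
      · intro h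
        exact absurd (h.2 h2) he
  · by_cases he : s.2 = true
    · rw [if_pos he]
      exact ⟨fun h => by linarith, fun h => absurd (h.1 he) h2⟩
    · rw [if_neg he, Wind30.dot_ng]
      constructor
      · intro _
        exact ⟨fun h => absurd h he, fun h => absurd h h2⟩
      · intro _
        linarith

lemma tau_of_Om {s : St k} (hs : Om v s.1) : tau v s = ((s.1.2, Wind75.nx v s.1.1 s.1.2),
    xor s.2 (decide (0 < Wind75.dd v s.1.1 s.1.2 (Wind75.nx v s.1.1 s.1.2)))) := by
  unfold tau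
  rw [if_pos hs]

lemma tau_of_not {s : St k} (hs : ¬ Om v s.1) : tau v s = s := by
  unfold tau
  rw [if_neg hs]

lemma tau_Om (hg : Wind75.Gen v) (hk : 1 ≤ k) {s : St k} (hs : Om v s.1) : Om v (tau v s).1 := by
  rw [tau_of_Om v hs]
  have hc := Wind75.nx_spec v hg (by omega) hs.1
  have hD : Wind75.dd v s.1.1 s.1.2 (Wind75.nx v s.1.1 s.1.2) ≠ 0 :=
    hg _ _ _ hs.1 hc.1.symm hc.2.1.symm
  refine ⟨hc.2.1.symm, ?_⟩
  rcases lt_or_gt_of_ne hD with h1 | h1
  · have := Q_next_neg (chi_dd v hg) hc h1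
    simp only
    rw [this, hs.2]
  · have := Q_next_pos (chi_dd v hg) hs.1 hc h1
    simp only
    have h2 := hs.2
    omega

lemma tau_inj (hg : Wind75.Gen v) (hk : 1 ≤ k) : Function.Injective (tau v) := by
  intro s t hst
  by_cases hs : Om v s.1 <;> by_cases ht : Om v t.1
  · rw [tau_of_Om v hs, tau_of_Om v ht] at hst
    obtain ⟨⟨p, q⟩, e⟩ := s
    obtain ⟨⟨p', q'⟩, e'⟩ := t
    simp only [Prod.mk.injEq] at hst
    obtain ⟨⟨h1, h2⟩, h3⟩ := hst
    subst h1
    have c1 := Wind75.nx_spec v hg (by omega) hs.1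
    have c2 := Wind75.nx_spec v hg (by omega) ht.1
    simp only at c1 c2
    rw [← h2] at c2
    have h4 : p = p' := Cons.unique_left (chi_dd v hg) c1 c2 hs.1 ht.1
    subst h4
    have h5 : e = e' := by
      revert h3
      cases e <;> cases e' <;> simp
    rw [h5]
  · exfalso
    apply ht
    rw [tau_of_not v ht] at hst
    rw [← hst]
    exact tau_Om v hg hk hs
  · exfalso
    apply hs
    rw [tau_of_not v hs] at hst
    rw [hst]
    exact tau_Om v hg hk ht
  · rw [tau_of_not v hs, tau_of_not v ht] at hst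
    exact hst

lemma tau_sg (s : St k) : tau v (sg s) = sg (tau v s) := by
  by_cases hs : Om v s.1
  · have hs' : Om v (sg s).1 := hs
    rw [tau_of_Om v hs, tau_of_Om v hs']
    obtain ⟨⟨p, q⟩, e⟩ := s
    simp only [sg, Bool.not_xor]
    rfl
  · have hs' : ¬ Om v (sg s).1 := hs
    rw [tau_of_not v hs, tau_of_not v hs']

lemma halv_nrmS (hg : Wind75.Gen v) (hk : 1 ≤ k) (s : St k) (hs : Om v s.1) :
    Wind30.Halv k v (nrmS v s) s.1.2 := by
  have h1 : Wind30.Halv k v (mm v s.1.1 s.1.2) s.1.2 := by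
    refine ⟨mm_perp v _ _, ?_, ?_⟩
    · intro z hz
      rcases mm_sign v hg hk hs.1 z hz with ⟨h1, _⟩ | ⟨h1, _⟩
      · exact h1.ne'
      · exact h1.ne
    · refine Eq.trans ?_ hs.2
      unfold Q
      congr 1
      ext z
      simp only [mem_filter, mem_univ, true_and]
      by_cases hz : z = s.1.2
      · rw [hz, mm_perp, Wind75.dd_self23]
      · rcases mm_sign v hg hk hs.1 z hz with ⟨h1, h2⟩ | ⟨h1, h2⟩
        · exact ⟨fun _ => h2, fun _ => h1⟩
        · exact ⟨fun h => by linarith, fun h => absurd h h2⟩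
  unfold nrmS
  by_cases he : s.2 = true
  · rw [if_pos he]
    exact h1
  · rw [if_neg he]
    refine ⟨?_, ?_, ?_⟩
    · rw [Wind30.dot_ng, h1.perp, neg_zero]
    · intro z hz
      rw [Wind30.dot_ng]
      exact neg_ne_zero.2 (h1.ne z hz)
    · refine Eq.trans ?_ h1.card_neg
      congr 1
      ext z
      simp only [mem_filter, mem_univ, true_and]
      rw [Wind30.dot_ng]
      exact neg_pos

lemma step_sign (hg : Wind75.Gen v) (hk : 1 ≤ k) (s : St k) (hs : Om v s.1) (z : Fin (2 * k + 1))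
    (hz1 : z ≠ s.1.2) (hz2 : z ≠ (tau v s).1.2) :
    0 < dot (nrmS v s) (v z) ↔ 0 < dot (nrmS v (tau v s)) (v z) := by
  have hs' := tau_Om v hg hk hs
  rw [nrmS_pos v hg hk s hs.1 z hz1, nrmS_pos v hg hk _ hs'.1 z hz2]
  rw [tau_of_Om v hs]
  have hc := Wind75.nx_spec v hg (by omega) hs.1
  have hD : Wind75.dd v s.1.1 s.1.2 (Wind75.nx v s.1.1 s.1.2) ≠ 0 :=
    hg _ _ _ hs.1 hc.1.symm hc.2.1.symm
  simp only
  rcases lt_or_gt_of_ne hD with h1 | h1
  · rw [next_neg_iff (chi_dd v hg) hc h1 z]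
    have : decide (0 < Wind75.dd v s.1.1 s.1.2 (Wind75.nx v s.1.1 s.1.2)) = false :=
      decide_eq_false (not_lt.2 h1.le)
    rw [this, Bool.xor_false]
  · rw [next_pos_iff (chi_dd v hg) hc h1 z hz1]
    have : decide (0 < Wind75.dd v s.1.1 s.1.2 (Wind75.nx v s.1.1 s.1.2)) = true :=
      decide_eq_true h1
    rw [this, Bool.xor_true]
    cases s.2 <;> simp

lemma adj_Om (hg : Wind75.Gen v) (hk : 1 ≤ k) {s t : St k} (h : Adj id (tau v) s t) (hs : Om v s.1) :
    Om v t.1 := by
  rcases h with h | h | h | h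
  · simp only [id] at h
    rw [← h]
    exact hs
  · simp only [id] at h
    by_contra ht
    rw [tau_of_not v ht] at h
    exact ht (h ▸ hs)
  · simp only [id] at h
    rw [← h]
    exact tau_Om v hg hk hs
  · rw [← tau_inj v hg hk h]
    exact hs

lemma adj_sign (hg : Wind75.Gen v) (hk : 1 ≤ k) {s t : St k} (h : Adj id (tau v) s t) (hs : Om v s.1)
    (z : Fin (2 * k + 1)) (hz1 : z ≠ s.1.2) (hz2 : z ≠ t.1.2) :
    0 < dot (nrmS v s) (v z) ↔ 0 < dot (nrmS v t) (v z) := by
  have ht := adj_Om v hg hk h hs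
  rcases h with h | h | h | h
  · simp only [id] at h
    rw [h]
  · simp only [id] at h
    rw [h] at hz1 ⊢
    exact (step_sign v hg hk t ht z hz2 hz1).symm
  · simp only [id] at h
    rw [← h] at hz2 ⊢
    exact step_sign v hg hk s hs z hz1 hz2
  · rw [tau_inj v hg hk h]

lemma lift_reach {α : Type*} {R : α → α → Prop} {P : α → Prop} (hinv : ∀ a b, R a b → P a → P b)
    {a b : α} (h : Relation.ReflTransGen R a b) (ha : P a) :
    ∃ hb : P b, Relation.ReflTransGen (fun x y : Subtype P => R x.1 y.1) ⟨a, ha⟩ ⟨b, hb⟩ := by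
  induction h with
  | refl => exact ⟨ha, Relation.ReflTransGen.refl⟩
  | tail _ hbc ih =>
    obtain ⟨hb, ih'⟩ := ih
    exact ⟨hinv _ _ hbc hb, ih'.tail hbc⟩

lemma nrmS_sg (s : St k) (z : Fin (2 * k + 1)) :
    0 < dot (nrmS v (sg s)) (v z) ↔ dot (nrmS v s) (v z) < 0 := by
  obtain ⟨x, e⟩ := s
  cases e <;> simp [nrmS, sg, Wind30.dot_ng]

theorem exists_lab_pos (hg : Wind75.Gen v) (hk : 1 ≤ k) :
    ∃ (σ : Fin (2 * k + 1) ≃ Fin (2 * k + 1)) (nn : ℕ → V3),
      Lab k (fun i => if h : i < 2 * k + 1 then v (σ ⟨i, h⟩) else 0) nn := by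
  classical
  have hbij : Function.Bijective (tau v) := Finite.injective_iff_bijective.1 (tau_inj v hg hk)
  obtain ⟨a, ha⟩ := odd_turns hk (chi_dd v hg) (Wind75.nx v)
    (fun p q hpq => Wind75.nx_spec v hg (by omega) hpq)
  obtain ⟨s, hs⟩ := exists_reach_antipode (S := St k) (X := St k) id (tau v) sg Prod.snd
    (by intro s; simp [sg])
    (by
      intro x
      obtain ⟨y, hy⟩ := hbij.2 x
      have h1 : (univ.filter fun s : St k => id s = x) = {x} := by
        ext s
        simp
      have h2 : (univ.filter fun s : St k => tau v s = x) = {y} := by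
        ext s
        simp only [mem_filter, mem_univ, true_and, mem_singleton]
        constructor
        · intro h
          exact hbij.1 (h.trans hy.symm)
        · intro h
          rw [h, hy]
      rw [h1, h2]
      simp)
    (by
      intro s t h
      rcases h with h | h | h | h
      · exact Or.inl (congrArg sg h)
      · refine Or.inr (Or.inl ?_)
        simp only [id] at h ⊢
        rw [tau_sg, ← h]
      · refine Or.inr (Or.inr (Or.inl ?_))
        simp only [id] at h ⊢
        rw [tau_sg, h]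
      · refine Or.inr (Or.inr (Or.inr ?_))
        rw [tau_sg, tau_sg, h])
    (by
      intro s
      rw [tau_sg]
      simp only [id, sg]
      cases s.2 <;> cases (tau v s).2 <;> rfl)
    (2 * a + 1) ⟨a, rfl⟩
    (by
      have h1 : (univ.filter fun s : St k => ((id s).2 != (tau v s).2) = true)
          = (univ.filter fun x : Fin (2 * k + 1) × Fin (2 * k + 1) =>
              x.1 ≠ x.2 ∧ Q (Wind75.dd v) x.1 x.2 = k
                ∧ 0 < Wind75.dd v x.1 x.2 (Wind75.nx v x.1 x.2)) ×ˢ (univ : Finset Bool) := by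
        ext ⟨x, e⟩
        simp only [mem_filter, mem_univ, true_and, mem_product, and_true, id]
        by_cases hx : Om v x
        · rw [tau_of_Om v (s := (x, e)) hx]
          simp only
          have h3 : (x.1 ≠ x.2 ∧ Q (Wind75.dd v) x.1 x.2 = k
              ∧ 0 < Wind75.dd v x.1 x.2 (Wind75.nx v x.1 x.2))
              ↔ 0 < Wind75.dd v x.1 x.2 (Wind75.nx v x.1 x.2) :=
            ⟨fun h => h.2.2, fun h => ⟨hx.1, hx.2, h⟩⟩
          rw [h3]
          by_cases h4 : 0 < Wind75.dd v x.1 x.2 (Wind75.nx v x.1 x.2)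
          · cases e <;> simp [h4]
          · cases e <;> simp [h4]
        · rw [tau_of_not v (s := (x, e)) hx]
          simp only [bne_self_eq_false, Bool.false_eq_true, false_iff]
          intro h
          exact hx ⟨h.1, h.2.1⟩
      rw [h1, card_product, ha]
      simp
      ring)
  have hOm : Om v s.1 := by
    by_contra hn
    have h1 : ∀ t, Relation.ReflTransGen (Adj id (tau v)) s t → t = s := by
      intro t ht
      induction ht with
      | refl => rfl
      | @tail b c _ hbc ih =>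
        rw [ih] at hbc
        by_contra hne
        rcases hbc with h | h | h | h
        · exact hne h.symm
        · simp only [id] at h
          by_cases hc : Om v c.1
          · exact hn (h ▸ tau_Om v hg hk hc)
          · rw [tau_of_not v hc] at h
            exact hne h.symm
        · rw [tau_of_not v hn] at h
          exact hne h.symm
        · exact hne (tau_inj v hg hk h).symm
    have h2 := congrArg Prod.snd (h1 _ hs)
    simp [sg] at h2
  obtain ⟨hb, hr⟩ := lift_reach (P := fun s : St k => Om v s.1)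
    (fun a b hab ha => adj_Om v hg hk hab ha) hs hOm
  exact Wind30.lab_of_reach (S := {s : St k // Om v s.1}) (fun x y => Adj id (tau v) x.1 y.1)
    (fun x => nrmS v x.1) (fun x => x.1.1.2)
    (fun x => halv_nrmS v hg hk x.1 x.2)
    (fun x y hxy z hz1 hz2 => adj_sign v hg hk hxy x.2 z hz1 hz2)
    ⟨s, hOm⟩ ⟨sg s, hb⟩ hr rfl
    (fun z _ => nrmS_sg v s z)

/-- THE LABELLING LEMMA: `2k+1` vectors of three-space in general position can be labelled so that `Lab` holds. -/
theorem exists_lab (k : ℕ) (v : Fin (2 * k + 1) → V3)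
    (h : ∀ a b c, a ≠ b → a ≠ c → b ≠ c → det3 (v a) (v b) (v c) ≠ 0) :
    ∃ (σ : Fin (2 * k + 1) ≃ Fin (2 * k + 1)) (nn : ℕ → V3),
      Lab k (fun i => if h : i < 2 * k + 1 then v (σ ⟨i, h⟩) else 0) nn := by
  rcases Nat.eq_zero_or_pos k with rfl | hk
  · refine ⟨Equiv.refl _, fun _ => 0, ?_⟩
    constructor
    · intro i _
      simp [dot]
    · intro i hi j hj hij
      omega
    · intro i hi j hj
      omega
    · intro i hi hi'
      omega
    · intro i _
      simp [dot]
  · exact exists_lab_pos v h hk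

end Vale.Agent.P040.Sph93
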